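import Mathlib

/-!
# P209 — two multiset (Sym) counting lemmas (pool job 204, backup by helper40, for helper49)
-/

namespace Vale.Agent.Lib.P209.H49

/-- A1. Multisets of size K containing the letter l at least T times are at most as many as the
multisets of size K - T (inject s |-> s - T copies of l; if T > K the filter is empty). -/
theorem card_filter_count_ge_le (α : Type) [Fintype α] [DecidableEq α] (K T : ℕ) (l : α) :
    (Finset.univ.filter (fun s : Sym α K => T ≤ Multiset.count l s.1)).card ≤
      Fintype.card (Sym α (K - T)) := by
  classical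
  rw [← Fintype.card_subtype]
  let f : {s : Sym α K // T ≤ Multiset.count l s.1} → Sym α (K - T) := fun x =>
    ⟨x.1.1 - Multiset.replicate T l, by
      rw [Multiset.card_sub (Multiset.le_count_iff_replicate_le.mp x.2), x.1.2,
        Multiset.card_replicate]⟩
  apply Fintype.card_le_of_injective f
  intro x y hxy
  have h3 : x.1.1 - Multiset.replicate T l = y.1.1 - Multiset.replicate T l :=
    congrArg Subtype.val hxy
  have h4 : x.1.1 = y.1.1 := by
    rw [← Multiset.sub_add_cancel (Multiset.le_count_iff_replicate_le.mp x.2),
      ← Multiset.sub_add_cancel (Multiset.le_count_iff_replicate_le.mp y.2), h3]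
  exact Subtype.ext (Subtype.ext h4)

/-- A2. Union bound: complement of the good set is the union over i of the filters of A1. -/
theorem card_good_ge (α : Type) [Fintype α] [DecidableEq α] (K : ℕ) {ι : Type} [Fintype ι]
    (l : ι → α) (T : ι → ℕ) :
    Fintype.card (Sym α K) ≤
      Fintype.card {s : Sym α K // ∀ i, Multiset.count (l i) s.1 < T i} +
        ∑ i, Fintype.card (Sym α (K - T i)) := by
  classical
  rw [Fintype.card_subtype]
  have hsplit := Finset.card_filter_add_card_filter_not (s := (Finset.univ : Finset (Sym α K)))
    (fun s : Sym α K => ∀ i, Multiset.count (l i) s.1 < T i)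
  have hbad : (Finset.univ.filter
      (fun s : Sym α K => ¬ ∀ i, Multiset.count (l i) s.1 < T i)).card ≤
      ∑ i, Fintype.card (Sym α (K - T i)) := by
    have hsub : Finset.univ.filter (fun s : Sym α K => ¬ ∀ i, Multiset.count (l i) s.1 < T i) ⊆
        (Finset.univ : Finset ι).biUnion
          (fun i => Finset.univ.filter (fun s : Sym α K => T i ≤ Multiset.count (l i) s.1)) := by
      intro s hs
      rw [Finset.mem_filter] at hs
      have h2 := hs.2
      push Not at h2
      obtain ⟨i, hi⟩ := h2
      exact Finset.mem_biUnion.mpr ⟨i, Finset.mem_univ i, Finset.mem_filter.mpr ⟨Finset.mem_univ s, hi⟩⟩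
    calc (Finset.univ.filter
          (fun s : Sym α K => ¬ ∀ i, Multiset.count (l i) s.1 < T i)).card
        ≤ ((Finset.univ : Finset ι).biUnion
          (fun i => Finset.univ.filter
            (fun s : Sym α K => T i ≤ Multiset.count (l i) s.1))).card :=
          Finset.card_le_card hsub
      _ ≤ ∑ i, (Finset.univ.filter
            (fun s : Sym α K => T i ≤ Multiset.count (l i) s.1)).card :=
          Finset.card_biUnion_le
      _ ≤ ∑ i, Fintype.card (Sym α (K - T i)) :=
          Finset.sum_le_sum fun i _ => card_filter_count_ge_le α K (T i) (l i)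
  have hcard : Fintype.card (Sym α K) = (Finset.univ : Finset (Sym α K)).card :=
    Finset.card_univ.symm
  omega

end Vale.Agent.Lib.P209.H49
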